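import Vale.Agent.P101.Lit.Defs

/-! P101: existence of the step path: two bijections and a path of unitaries between their
permutation matrices. -/

namespace Vale.Agent.P101.Lit

open scoped unitInterval ComplexOrder
open Matrix

/-- The matrix of a bijection. -/
def permMat {X Y : Type*} [DecidableEq Y] (e : X ≃ Y) : Matrix X Y ℂ :=
  Matrix.of fun x y => if e x = y then 1 else 0

section perm

variable {X Y Z : Type*} [Fintype X] [DecidableEq X] [Fintype Y] [DecidableEq Y] [Fintype Z]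
  [DecidableEq Z]

theorem permMat_mul (e : X ≃ Y) (f : Y ≃ Z) : permMat e * permMat f = permMat (e.trans f) := by
  ext x z
  rw [Matrix.mul_apply, Finset.sum_eq_single (e x)]
  · by_cases h : f (e x) = z <;> simp [permMat, h]
  · intro b _ hb; simp [permMat, Ne.symm hb]
  · simp

theorem permMat_refl : permMat (Equiv.refl X) = 1 := by
  ext x y
  by_cases h : x = y
  · subst h; simp [permMat]
  · simp [permMat, h]

theorem conjTranspose_permMat (e : X ≃ Y) : (permMat e)ᴴ = permMat e.symm := by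
  ext y x
  by_cases h : e x = y
  · simp [permMat, h, (Equiv.symm_apply_eq e).2 h.symm]
  · have h' : e.symm y ≠ x := fun h' => h (by rw [← h']; simp)
    simp [permMat, h, h']

theorem permMat_unitary (e : X ≃ Y) :
    (permMat e)ᴴ * permMat e = 1 ∧ permMat e * (permMat e)ᴴ = 1 := by
  simp [conjTranspose_permMat, permMat_mul, permMat_refl]

theorem permMat_swap (x y : Y) :
    (permMat (Equiv.swap x y))ᴴ = permMat (Equiv.swap x y) := by
  rw [conjTranspose_permMat, Equiv.symm_swap]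

/-- A path of unitaries from `1` to a permutation matrix. -/
theorem exists_perm_path (s : Equiv.Perm Y) :
    ∃ Q : C(I, Matrix Y Y ℂ), (∀ t, (Q t)ᴴ * Q t = 1 ∧ Q t * (Q t)ᴴ = 1) ∧
      Q 0 = 1 ∧ Q 1 = permMat s := by
  induction s using Equiv.Perm.swap_induction_on with
  | one => exact ⟨ContinuousMap.const I 1, fun t => by simp, rfl, permMat_refl.symm⟩
  | swap_mul f x y _ ih =>
    obtain ⟨Q, hQ, hQ0, hQ1⟩ := ih
    set J := permMat (Equiv.swap x y) with hJ
    have hJJ : J * J = 1 := by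
      have := (permMat_unitary (Equiv.swap x y)).1
      rwa [permMat_swap] at this
    have hJs : Jᴴ = J := permMat_swap x y
    set z : I → ℂ := fun t => Complex.exp ((Real.pi * (t : ℝ) : ℝ) * Complex.I) with hz
    have hzc : Continuous z := by fun_prop
    have hzn : ∀ t, star (z t) * z t = 1 := fun t => by
      show (starRingEnd ℂ) (z t) * z t = 1
      rw [Complex.conj_mul', hz]
      simp only [Complex.norm_exp_ofReal_mul_I]
      norm_num
    set R : I → Matrix Y Y ℂ := fun t => ((1 + z t) / 2) • 1 + ((1 - z t) / 2) • J with hR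
    have hRc : Continuous R := ((continuous_const.add hzc).div_const 2).smul continuous_const |>.add
      (((continuous_const.sub hzc).div_const 2).smul continuous_const)
    have hRR : ∀ t, (R t)ᴴ * R t = 1 ∧ R t * (R t)ᴴ = 1 := fun t => by
      have h := hzn t
      have hs : ∀ c : ℂ, star (c / 2) = star c / 2 := fun c => by simp
      have e1 : star ((1 + z t) / 2) * ((1 + z t) / 2) + star ((1 - z t) / 2) * ((1 - z t) / 2) = 1 := by
        simp only [hs, star_add, star_sub, star_one]; linear_combination h / 2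
      have e2 : star ((1 + z t) / 2) * ((1 - z t) / 2) + star ((1 - z t) / 2) * ((1 + z t) / 2) = 0 := by
        simp only [hs, star_add, star_sub, star_one]; linear_combination -h / 2
      constructor
      · simp only [hR, conjTranspose_add, conjTranspose_smul, conjTranspose_one, hJs, add_mul,
          mul_add, smul_mul_smul_comm, mul_one, one_mul, hJJ]
        calc _ = (star ((1 + z t) / 2) * ((1 + z t) / 2) + star ((1 - z t) / 2) * ((1 - z t) / 2)) • (1 : Matrix Y Y ℂ)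
            + (star ((1 + z t) / 2) * ((1 - z t) / 2) + star ((1 - z t) / 2) * ((1 + z t) / 2)) • J := by
              simp only [add_smul]; abel
          _ = 1 := by rw [e1, e2, one_smul, zero_smul, add_zero]
      · simp only [hR, conjTranspose_add, conjTranspose_smul, conjTranspose_one, hJs, add_mul,
          mul_add, smul_mul_smul_comm, mul_one, one_mul, hJJ]
        calc _ = (star ((1 + z t) / 2) * ((1 + z t) / 2) + star ((1 - z t) / 2) * ((1 - z t) / 2)) • (1 : Matrix Y Y ℂ)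
            + (star ((1 + z t) / 2) * ((1 - z t) / 2) + star ((1 - z t) / 2) * ((1 + z t) / 2)) • J := by
              simp only [add_smul, mul_comm (star _)]; abel
          _ = 1 := by rw [e1, e2, one_smul, zero_smul, add_zero]
    refine ⟨⟨fun t => Q t * R t, Q.continuous.matrix_mul hRc⟩, fun t => ?_, ?_, ?_⟩
    · obtain ⟨a, a'⟩ := hQ t
      obtain ⟨b, b'⟩ := hRR t
      refine ⟨?_, ?_⟩ <;> simp only [ContinuousMap.coe_mk, conjTranspose_mul]
      · rw [mul_assoc, ← mul_assoc (Q t)ᴴ, a, one_mul, b]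
      · rw [mul_assoc, ← mul_assoc (R t), b', one_mul, a']
    · show Q 0 * R 0 = 1
      rw [hQ0, one_mul]
      simp [hR, hz]
    · show Q 1 * R 1 = _
      have : R 1 = J := by simp [hR, hz, Complex.exp_pi_mul_I]
      rw [hQ1, this, hJ, permMat_mul]
      rfl

end perm

section index

variable {p q k₀ k₁ : ℕ}

theorem card_left (hq : 0 < q) :
    p * (k₀ % q) + p * q * (k₀ / q) = k₀ * p := by
  have := Nat.mod_add_div k₀ q
  calc p * (k₀ % q) + p * q * (k₀ / q) = p * (k₀ % q + q * (k₀ / q)) := by ring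
    _ = k₀ * p := by rw [this]; ring

theorem r₀_add_r₁_le (hq : 0 < q) (hp : 0 < p) (h₀ : 2 * q < k₀) (h₁ : 2 * p < k₁) :
    r₀ q k₀ k₁ + r₁ p k₀ k₁ ≤ k₀ * k₁ := by
  have a : 2 * (k₀ % q) ≤ k₀ := by have := Nat.mod_lt k₀ hq; omega
  have b : 2 * (k₁ % p) ≤ k₁ := by have := Nat.mod_lt k₁ hp; omega
  simp only [r₀, r₁]
  nlinarith [Nat.mul_le_mul_left k₁ a, Nat.mul_le_mul_left k₀ b]

theorem card_rest_left (hq : 0 < q) (h : r₀ q k₀ k₁ + r₁ p k₀ k₁ ≤ k₀ * k₁) :
    k₀ / q * (k₁ * q) = (k₀ * k₁ - r₀ q k₀ k₁ - r₁ p k₀ k₁) + r₁ p k₀ k₁ := by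
  have e : r₀ q k₀ k₁ + k₀ / q * (k₁ * q) = k₀ * k₁ := by
    simp only [r₀]
    calc k₁ * (k₀ % q) + k₀ / q * (k₁ * q) = k₁ * (k₀ % q + q * (k₀ / q)) := by ring
      _ = k₀ * k₁ := by rw [Nat.mod_add_div]; ring
  omega

theorem card_rest_right (h : r₀ q k₀ k₁ + r₁ p k₀ k₁ ≤ k₀ * k₁) :
    k₁ / p * (k₀ * p) = r₀ q k₀ k₁ + (k₀ * k₁ - r₀ q k₀ k₁ - r₁ p k₀ k₁) := by
  have e : r₁ p k₀ k₁ + k₁ / p * (k₀ * p) = k₀ * k₁ := by
    simp only [r₁]
    calc k₀ * (k₁ % p) + k₁ / p * (k₀ * p) = k₀ * (k₁ % p + p * (k₁ / p)) := by ring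
      _ = k₀ * k₁ := by rw [Nat.mod_add_div]
  omega

/-- Left index bijection: coordinates of `Fin (k₀ p)`. -/
def leftSplit (hq : 0 < q) : Fin (k₀ * p) ≃ (Fin p × Fin (k₀ % q)) ⊕ (Ix p q × Fin (k₀ / q)) :=
  (finCongr (card_left hq).symm).trans <| finSumFinEquiv.symm.trans <|
    (finProdFinEquiv.symm).sumCongr (finProdFinEquiv.symm.trans
      (finProdFinEquiv.symm.prodCongr (Equiv.refl _)))

/-- Right index bijection: coordinates of `Fin (k₁ q)`. -/
def rightSplit (hp : 0 < p) : Fin (k₁ * q) ≃ (Fin q × Fin (k₁ % p)) ⊕ (Ix p q × Fin (k₁ / p)) :=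
  (finCongr ((card_left (p := q) (q := p) hp).symm.trans
      (by rw [mul_comm q p]))).trans <| finSumFinEquiv.symm.trans <|
    (finProdFinEquiv.symm).sumCongr (finProdFinEquiv.symm.trans
      (finProdFinEquiv.symm.prodCongr (Equiv.refl _)))

variable (hq : 0 < q) (hp : 0 < p) (h : r₀ q k₀ k₁ + r₁ p k₀ k₁ ≤ k₀ * k₁)

/-- Words of the first kind. -/
def inlWord : Fin k₁ × Fin (k₀ % q) ≃ Fin (r₀ q k₀ k₁) := finProdFinEquiv

/-- Words of the third kind. -/
def inrWord : Fin k₀ × Fin (k₁ % p) ≃ Fin (r₁ p k₀ k₁) := finProdFinEquiv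

/-- The other words at the left end. -/
def restLeft : Fin (k₀ / q) × Fin (k₁ * q) ≃
    Fin (k₀ * k₁ - r₀ q k₀ k₁ - r₁ p k₀ k₁) ⊕ Fin (r₁ p k₀ k₁) :=
  finProdFinEquiv.trans ((finCongr (card_rest_left hq h)).trans finSumFinEquiv.symm)

/-- The other words at the right end. -/
def restRight : Fin (k₁ / p) × Fin (k₀ * p) ≃
    Fin (r₀ q k₀ k₁) ⊕ Fin (k₀ * k₁ - r₀ q k₀ k₁ - r₁ p k₀ k₁) :=
  finProdFinEquiv.trans ((finCongr (card_rest_right h)).trans finSumFinEquiv.symm)

/-- The bijection at the left end. -/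
def leftEquiv : Ix (k₀ * p) (k₁ * q) ≃ Ix p q × Wd p q k₀ k₁ where
  toFun X := match leftSplit hq X.1 with
    | .inl (i, c) => ((i, (finProdFinEquiv.symm X.2).2),
        .inl (inlWord ((finProdFinEquiv.symm X.2).1, c)))
    | .inr (ij, d) => (ij, .inr (restLeft hq h (d, X.2)))
  invFun w := match w.2 with
    | .inl r => ((leftSplit hq).symm (.inl (w.1.1, (inlWord.symm r).2)),
        finProdFinEquiv ((inlWord.symm r).1, w.1.2))
    | .inr r => ((leftSplit hq).symm (.inr (w.1, ((restLeft hq h).symm r).1)),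
        ((restLeft hq h).symm r).2)
  left_inv X := by
    obtain ⟨⟨i, c⟩ | ⟨ij, d⟩, hX⟩ : ∃ u, leftSplit hq X.1 = u := ⟨_, rfl⟩
    · simp only [hX, Equiv.symm_apply_apply, Prod.mk.eta, Equiv.apply_symm_apply]
      rw [← hX]; simp
    · simp only [hX, Equiv.symm_apply_apply]
      rw [← hX]; simp
  right_inv w := by
    obtain ⟨ij, r | r⟩ := w <;> simp

/-- The bijection at the right end. -/
def rightEquiv : Ix (k₀ * p) (k₁ * q) ≃ Ix p q × Wd p q k₀ k₁ where
  toFun X := match rightSplit hp X.2 with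
    | .inl (j, c) => (((finProdFinEquiv.symm X.1).2, j),
        .inr (.inr (inrWord ((finProdFinEquiv.symm X.1).1, c))))
    | .inr (ij, d) => (ij, Sum.map id .inl (restRight h (d, X.1)))
  invFun w := match w.2 with
    | .inl r => (((restRight h).symm (.inl r)).2,
        (rightSplit hp).symm (.inr (w.1, ((restRight h).symm (.inl r)).1)))
    | .inr (.inl r) => (((restRight h).symm (.inr r)).2,
        (rightSplit hp).symm (.inr (w.1, ((restRight h).symm (.inr r)).1)))
    | .inr (.inr r) => (finProdFinEquiv ((inrWord.symm r).1, w.1.1),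
        (rightSplit hp).symm (.inl (w.1.2, (inrWord.symm r).2)))
  left_inv X := by
    obtain ⟨⟨j, c⟩ | ⟨ij, d⟩, hX⟩ : ∃ u, rightSplit hp X.2 = u := ⟨_, rfl⟩
    · simp only [hX, Equiv.symm_apply_apply, Prod.mk.eta, Equiv.apply_symm_apply]
      rw [← hX]; simp
    · rcases hr : restRight h (d, X.1) with r | r
      all_goals
        simp only [hX, hr, Sum.map_inl, Sum.map_inr, id]
        rw [← hr, Equiv.symm_apply_apply]
        simp [← hX]
  right_inv w := by
    obtain ⟨ij, r | r | r⟩ := w <;> simp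

theorem stepVal_permMat (e : Ix (k₀ * p) (k₁ * q) ≃ Ix p q × Wd p q k₀ k₁)
    (F : Wd p q k₀ k₁ → Ix p q → Ix p q → ℂ) (x y : Ix (k₀ * p) (k₁ * q)) :
    stepVal (permMat e) F x y = if (e x).2 = (e y).2 then F (e x).2 (e x).1 (e y).1 else 0 := by
  rw [stepVal, Finset.sum_eq_single (e x).2]
  · rw [Finset.sum_eq_single (e x).1]
    · rw [Finset.sum_eq_single (e y).1]
      · by_cases hxy : (e x).2 = (e y).2
        · have h1 : e y = ((e y).1, (e x).2) := Prod.ext rfl hxy.symm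
          have h0 : e x = ((e x).1, (e y).2) := Prod.ext rfl hxy
          simp [permMat, hxy, ← h1, ← h0]
        · have h1 : e y ≠ ((e y).1, (e x).2) := fun hh => hxy (congrArg Prod.snd hh).symm
          simp [permMat, hxy, h1]
      · intro i' _ hi
        have h1 : e y ≠ (i', (e x).2) := fun hh => hi (congrArg Prod.fst hh).symm
        simp [permMat, h1]
      · simp
    · intro i _ hi
      have h1 : e x ≠ (i, (e x).2) := fun hh => hi (congrArg Prod.fst hh).symm
      simp [permMat, h1]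
    · simp
  · intro w _ hw
    refine Finset.sum_eq_zero fun i _ => Finset.sum_eq_zero fun i' _ => ?_
    have h1 : e x ≠ (i, w) := fun hh => hw (congrArg Prod.snd hh).symm
    simp [permMat, h1]
  · simp

theorem left_end (a M : Ix p q → Ix p q → ℂ) (ha : IsLeftEnd p q a) :
    IsLeftEnd (k₀ * p) (k₁ * q)
      (stepVal (permMat (leftEquiv hq h)) fun w => Sum.elim (fun _ => a) (fun _ => M) w) := by
  obtain ⟨α, hα⟩ := ha
  let G : (Fin p × Fin (k₀ % q)) ⊕ (Ix p q × Fin (k₀ / q)) →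
      (Fin p × Fin (k₀ % q)) ⊕ (Ix p q × Fin (k₀ / q)) → ℂ := fun u v => match u, v with
      | .inl (i, c), .inl (i', c') => if c = c' then α i i' else 0
      | .inr (ij, d), .inr (ij', d') => if d = d' then M ij ij' else 0
      | _, _ => 0
  refine ⟨fun u v => G (leftSplit hq u) (leftSplit hq v), fun x y => ?_⟩
  rw [stepVal_permMat]
  have eL : ∀ (z : Ix (k₀ * p) (k₁ * q)) i c, leftSplit hq z.1 = .inl (i, c) →
      leftEquiv hq h z = ((i, (finProdFinEquiv.symm z.2).2),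
        .inl (inlWord ((finProdFinEquiv.symm z.2).1, c))) := fun z i c hz => by
    simp only [leftEquiv, Equiv.coe_fn_mk, hz]
  have eR : ∀ (z : Ix (k₀ * p) (k₁ * q)) ij d, leftSplit hq z.1 = .inr (ij, d) →
      leftEquiv hq h z = (ij, .inr (restLeft hq h (d, z.2))) := fun z ij d hz => by
    simp only [leftEquiv, Equiv.coe_fn_mk, hz]
  obtain ⟨⟨i, c⟩ | ⟨ij, d⟩, hx⟩ : ∃ u, leftSplit hq x.1 = u := ⟨_, rfl⟩ <;>
    obtain ⟨⟨i', c'⟩ | ⟨ij', d'⟩, hy⟩ : ∃ u, leftSplit hq y.1 = u := ⟨_, rfl⟩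
  · obtain ⟨⟨l, j⟩, hl⟩ : ∃ u, finProdFinEquiv.symm x.2 = u := ⟨_, rfl⟩
    obtain ⟨⟨l', j'⟩, hl'⟩ : ∃ u, finProdFinEquiv.symm y.2 = u := ⟨_, rfl⟩
    have hb : x.2 = y.2 ↔ l = l' ∧ j = j' := by
      rw [← finProdFinEquiv.symm.injective.eq_iff, hl, hl', Prod.mk.injEq]
    simp only [eL x i c hx, eL y i' c' hy, hl, hl', Sum.inl.injEq, EmbeddingLike.apply_eq_iff_eq,
      Prod.mk.injEq, Sum.elim_inl, hα, hb, hx, hy, G]
    by_cases h1 : l = l' <;> by_cases h2 : c = c' <;> by_cases h3 : j = j' <;> simp [h1, h2, h3]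
  · simp [eL x i c hx, eR y ij' d' hy, hx, hy, G]
  · simp [eR x ij d hx, eL y i' c' hy, hx, hy, G]
  · simp only [eR x ij d hx, eR y ij' d' hy, Sum.inr.injEq, EmbeddingLike.apply_eq_iff_eq,
      Prod.mk.injEq, Sum.elim_inr, hx, hy, G]
    by_cases h1 : d = d' <;> by_cases h2 : x.2 = y.2 <;> simp [h1, h2]

theorem right_end (M b : Ix p q → Ix p q → ℂ) (hb : IsRightEnd p q b) :
    IsRightEnd (k₀ * p) (k₁ * q) (stepVal (permMat (rightEquiv hp h))
      fun w => Sum.elim (fun _ => M) (Sum.elim (fun _ => M) fun _ => b) w) := by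
  obtain ⟨β, hβ⟩ := hb
  let G : (Fin q × Fin (k₁ % p)) ⊕ (Ix p q × Fin (k₁ / p)) →
      (Fin q × Fin (k₁ % p)) ⊕ (Ix p q × Fin (k₁ / p)) → ℂ := fun u v => match u, v with
      | .inl (i, c), .inl (i', c') => if c = c' then β i i' else 0
      | .inr (ij, d), .inr (ij', d') => if d = d' then M ij ij' else 0
      | _, _ => 0
  refine ⟨fun u v => G (rightSplit hp u) (rightSplit hp v), fun x y => ?_⟩
  rw [stepVal_permMat]
  have eL : ∀ (z : Ix (k₀ * p) (k₁ * q)) i c, rightSplit hp z.2 = .inl (i, c) →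
      rightEquiv hp h z = (((finProdFinEquiv.symm z.1).2, i),
        .inr (.inr (inrWord ((finProdFinEquiv.symm z.1).1, c)))) := fun z i c hz => by
    simp only [rightEquiv, Equiv.coe_fn_mk, hz]
  have eR : ∀ (z : Ix (k₀ * p) (k₁ * q)) ij d, rightSplit hp z.2 = .inr (ij, d) →
      rightEquiv hp h z = (ij, Sum.map id Sum.inl (restRight h (d, z.1))) := fun z ij d hz => by
    simp only [rightEquiv, Equiv.coe_fn_mk, hz]
  have ne : ∀ (v : Fin (r₀ q k₀ k₁) ⊕ Fin (k₀ * k₁ - r₀ q k₀ k₁ - r₁ p k₀ k₁))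
      (r : Fin (r₁ p k₀ k₁)), Sum.map id Sum.inl v ≠ (.inr (.inr r) : Wd p q k₀ k₁) := by
    rintro (v | v) r <;> simp
  have inj : Function.Injective (Sum.map id Sum.inl :
      Fin (r₀ q k₀ k₁) ⊕ Fin (k₀ * k₁ - r₀ q k₀ k₁ - r₁ p k₀ k₁) → Wd p q k₀ k₁) :=
    Function.injective_id.sumMap Sum.inl_injective
  have val : ∀ (v : Fin (r₀ q k₀ k₁) ⊕ Fin (k₀ * k₁ - r₀ q k₀ k₁ - r₁ p k₀ k₁)),
      Sum.elim (fun _ => M) (Sum.elim (fun _ => M) fun _ => b)
        (Sum.map id Sum.inl v : Wd p q k₀ k₁) = M := by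
    rintro (v | v) <;> rfl
  obtain ⟨⟨i, c⟩ | ⟨ij, d⟩, hx⟩ : ∃ u, rightSplit hp x.2 = u := ⟨_, rfl⟩ <;>
    obtain ⟨⟨i', c'⟩ | ⟨ij', d'⟩, hy⟩ : ∃ u, rightSplit hp y.2 = u := ⟨_, rfl⟩
  · obtain ⟨⟨l, j⟩, hl⟩ : ∃ u, finProdFinEquiv.symm x.1 = u := ⟨_, rfl⟩
    obtain ⟨⟨l', j'⟩, hl'⟩ : ∃ u, finProdFinEquiv.symm y.1 = u := ⟨_, rfl⟩
    have hb : x.1 = y.1 ↔ l = l' ∧ j = j' := by
      rw [← finProdFinEquiv.symm.injective.eq_iff, hl, hl', Prod.mk.injEq]
    simp only [eL x i c hx, eL y i' c' hy, hl, hl', Sum.inr.injEq, EmbeddingLike.apply_eq_iff_eq,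
      Prod.mk.injEq, Sum.elim_inr, hβ, hb, hx, hy, G]
    by_cases h1 : l = l' <;> by_cases h2 : c = c' <;> by_cases h3 : j = j' <;> simp [h1, h2, h3]
  · simp [eL x i c hx, eR y ij' d' hy, hx, hy, G, (ne _ _).symm]
  · simp [eR x ij d hx, eL y i' c' hy, hx, hy, G, ne]
  · simp only [eR x ij d hx, eR y ij' d' hy, inj.eq_iff, val, EmbeddingLike.apply_eq_iff_eq,
      Prod.mk.injEq, hx, hy, G]
    by_cases h1 : d = d' <;> by_cases h2 : x.1 = y.1 <;> simp [h1, h2]

include hq hp h in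
theorem exists_isStepPath : ∃ U, IsStepPath p q k₀ k₁ U := by
  obtain ⟨Q, hQ, hQ0, hQ1⟩ := exists_perm_path ((leftEquiv hq h).symm.trans (rightEquiv hp h))
  obtain ⟨hP, hP'⟩ := permMat_unitary (leftEquiv hq h)
  refine ⟨⟨fun t => permMat (leftEquiv hq h) * Q t, continuous_const.matrix_mul Q.continuous⟩,
    fun t => ?_, fun a M ha => ?_, fun M b hb => ?_⟩
  · obtain ⟨a, a'⟩ := hQ t
    refine ⟨?_, ?_⟩ <;> simp only [ContinuousMap.coe_mk, conjTranspose_mul]
    · rw [Matrix.mul_assoc, ← Matrix.mul_assoc (permMat (leftEquiv hq h))ᴴ, hP, Matrix.one_mul, a]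
    · rw [Matrix.mul_assoc, ← Matrix.mul_assoc (Q t), a', Matrix.one_mul, hP']
  · simp only [ContinuousMap.coe_mk, hQ0, Matrix.mul_one]
    exact left_end hq h a M ha
  · simp only [ContinuousMap.coe_mk, hQ1, permMat_mul, ← Equiv.trans_assoc, Equiv.self_trans_symm,
      Equiv.refl_trans]
    exact right_end hp h M b hb

end index

end Vale.Agent.P101.Lit
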